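import Vale.Agent.P281.H716.LD.Defs
import Vale.Agent.P281.H713.KD.Iface
import Vale.Agent.P281.H716.MainC

/-! P281, the logarithmic case: the rows, as propositions. -/

open scoped Manifold ContDiff Topology ComplexOrder
open Set Filter Vale.Agent.P281 Vale.Agent.P272.K Vale.Agent.P299
open Vale.Agent.P299.H882 (xi)

noncomputable section

namespace Vale.Agent.P281.H716.LD

open Vale.Agent.P281.H713 Vale.Agent.P281.H713.SA Vale.Agent.P281.H716 Vale.Agent.P281.H713.KD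

/-- `H498.TenPartK'` for `IsLogDivisorial`. -/
def TenPartLD : Prop := ∀ (n p M : ℕ) (X Z Y : Type)
  [TopologicalSpace X] [T2Space X] [CompactSpace X] [ConnectedSpace X]
  [ChartedSpace (Cm n) X] [IsManifold 𝓘(ℂ, Cm n) ω X]
  [TopologicalSpace Z] [ChartedSpace (Cm n) Z] [IsManifold 𝓘(ℂ, Cm n) ω Z]
  [TopologicalSpace Y] [T2Space Y] [ConnectedSpace Y]
  [ChartedSpace (Cm p) Y] [IsManifold 𝓘(ℂ, Cm p) ω Y]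
  (χ : D.FormM n X) (_ : IsKahler χ)
  (j : Z → X) (_ : J.IsBigOpen (Cm n) j) (f : Z → Y) (_ : ContMDiff 𝓘(ℂ, Cm n) 𝓘(ℂ, Cm p) ω f)
  (Δ : Set X → ℝ) (_ : J.IsSNC (Cm n) Δ) (Δ' : Set Z → ℝ)
  (_ : J.IsSNC (Cm n) Δ') (_ : J.IsRestriction j Δ Δ')
  (𝒢 : Set (Set Y)) (_ : IsLogDivisorial (Cm n) (Cm p) f 𝒢 Δ')
  (Dv : Fin M → Set X) (_ : Function.Injective Dv) (_ : ∀ D, Δ D ≠ 0 ↔ ∃ i, Dv i = D)
  (r : Fin M → X → ℝ) (R : Fin M → D.FormM n X) (_ : IsBd Dv r R)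
  (m : ℕ) (_ : 0 < m) (k : Set Y → ℕ)
  (_ : ∀ G, (k G : ℝ) ≤ m * J.orbBase' (Cm n) (Cm p) f Δ' G) (_ : ∀ G, k G ≠ 0 → G ∈ 𝒢)
  (σ₀ σ₁ : Y → ℂ)
  (_ : J.IsSection (Cm p) (fun (D : Set Y) z g => J.IsLocalEq (Cm p) D g z) m k σ₀)
  (_ : J.IsSection (Cm p) (fun (D : Set Y) z g => J.IsLocalEq (Cm p) D g z) m k σ₁),
  ∃ (μ l : ℕ) (K : Fin M → ℕ) (N₀ N₁ : D.FormM n X → X → ℝ), 0 < l ∧ μ = m * l ∧
    (∀ i, (K i : ℝ) ≤ μ * Δ (Dv i)) ∧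
    IsDecPair Dv r χ p μ K N₀ N₁ ∧
    (∀ g x, IsKahler g → 0 < N₀ g x → 0 < N₁ g x →
      Real.log (N₁ g x) - Real.log (N₀ g x) = Real.log (N₁ χ x) - Real.log (N₀ χ x)) ∧
    ∀ z, f z ∉ ⋃₀ 𝒢 → (∀ i, j z ∉ Dv i) →
      Function.Surjective (mfderiv 𝓘(ℂ, Cm n) 𝓘(ℂ, Cm p) f z) → σ₀ (f z) ≠ 0 → σ₁ (f z) ≠ 0 →
      0 < N₀ χ (j z) ∧ 0 < N₁ χ (j z) ∧ Real.log (N₁ χ (j z)) - Real.log (N₀ χ (j z)) =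
        l * (Real.log (‖σ₁ (f z)‖ ^ 2) - Real.log (‖σ₀ (f z)‖ ^ 2))

/-- `KL.BridgeL` for `IsLogDivisorial`. -/
def BridgeLD : Prop := ∀ (n p M : ℕ) (X Z Y : Type)
  [TopologicalSpace X] [T2Space X] [CompactSpace X] [ConnectedSpace X]
  [ChartedSpace (Cm n) X] [IsManifold 𝓘(ℂ, Cm n) ω X]
  [TopologicalSpace Z] [ChartedSpace (Cm n) Z] [IsManifold 𝓘(ℂ, Cm n) ω Z]
  [TopologicalSpace Y] [T2Space Y] [ConnectedSpace Y]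
  [ChartedSpace (Cm p) Y] [IsManifold 𝓘(ℂ, Cm p) ω Y]
  (χ : D.FormM n X) (_ : IsKahler χ)
  (j : Z → X) (_ : J.IsBigOpen (Cm n) j) (f : Z → Y) (_ : ContMDiff 𝓘(ℂ, Cm n) 𝓘(ℂ, Cm p) ω f)
  (Δ : Set X → ℝ) (_ : J.IsSNC (Cm n) Δ) (Δ' : Set Z → ℝ)
  (_ : J.IsSNC (Cm n) Δ') (_ : J.IsRestriction j Δ Δ')
  (𝒢 : Set (Set Y)) (_ : IsLogDivisorial (Cm n) (Cm p) f 𝒢 Δ')
  (Dv : Fin M → Set X) (_ : Function.Injective Dv) (_ : ∀ D, Δ D ≠ 0 ↔ ∃ i, Dv i = D)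
  (r : Fin M → X → ℝ) (R : Fin M → D.FormM n X) (_ : IsBd Dv r R) (m₀ : ℕ) (_ : 0 < m₀)
  (N : ℕ) (P : Fin N → X → ℂ) (R' : Set X)
  (_ : ∀ (p' μ : ℕ) (K : Fin M → ℕ) (N₀ N₁ : D.FormM n X → X → ℝ) (u : X → ℝ), m₀ ∣ μ →
    (∀ i, (K i : ℝ) ≤ μ * Δ (Dv i)) → IsDecPair Dv r χ p' μ K N₀ N₁ →
    (∀ g x, IsKahler g → 0 < N₀ g x → 0 < N₁ g x →
      u x = Real.log (N₁ g x) - Real.log (N₀ g x)) →
    ∀ x ∈ R', 0 < N₀ χ x → 0 < N₁ χ x → ∀ e, At e x → ∀ a₀, P a₀ x ≠ 0 → ∀ v : Cm n,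
      (∀ a, fderiv ℂ (fun z => P a (e.symm z) / P a₀ (e.symm z)) (e x) v = 0) →
      ∑ i, xi u e (e x) i * v i = 0),
  ConstY n p j f 𝒢 Δ Δ' P R'

end Vale.Agent.P281.H716.LD
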