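import Vale.Agent.P281.H716.KL.X2
import Vale.Agent.P281.H716.KL.FibI
import Vale.Agent.P281.H716.LD.Rows
import Vale.Agent.P281.H716.LD.MainB

/-! P281, the logarithmic case: assembly. -/

open scoped Manifold ContDiff Topology ComplexOrder
open Set Filter Vale.Agent.P281 Vale.Agent.P272.K Vale.Agent.P299
open Vale.Agent.P272.K.INT (IsClosedForm)
open Vale.Agent.P272.K.AMP (hess)
open Vale.Agent.P299.H882 (xi)

set_option linter.all false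

noncomputable section

namespace Vale.Agent.P281.H716.LD

open Vale.Agent.P281.MF Vale.Agent.P281.ISO
open Vale.Agent.P281.H713 Vale.Agent.P281.H713.SA Vale.Agent.P281.H713.KD Vale.Agent.P281.H716
open Vale.Agent.P281.H716.IsSys Vale.Agent.P281.H716.KL
open Vale.Agent.P281.H167.KG (SysLoc SysDat LocAt FormPartG GrowthPartG MetPartG exists_sysDat
  sysLoc_id)

/-- **the X side**: the quotients of tensors are constant along the kernel of the map given by the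
sections `S b * S' c` -/
theorem core_GL (hform : FormPartG) (hgr : GrowthPartG) (hmet : MetPartG) (hnull : NullPart')
    (hcore : CorePartLG) {n : ℕ} {X : Type}
    [TopologicalSpace X] [T2Space X] [CompactSpace X] [ConnectedSpace X]
    [ChartedSpace (Cm n) X] [IsManifold 𝓘(ℂ, Cm n) ω X]
    {χ : D.FormM n X} (hχ : IsKahler χ)
    {Δ Δ₀ : Set X → ℝ} (hΔ : J.IsSNC (Cm n) Δ) (hΔ₀ : ∀ D, ∃ q : ℚ, Δ₀ D = q ∧ 0 ≤ q ∧ q < 1)
    (hle : ∀ D, Δ₀ D ≤ Δ D) {t : ℝ} (ht : 0 < t) (ht1 : t ≤ 1)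
    {m N : ℕ} (hm : 0 < m) {k : Set X → ℕ} (hk : ∀ D, (k D : ℝ) = m * Δ₀ D) {S : Fin N → X → ℂ}
    (hS : ∀ b, J.IsSection (Cm n) (eqL n) m k (S b))
    {m' N' : ℕ} (hm' : 0 < m') {k' : Set X → ℕ}
    (hk' : ∀ D, (k' D : ℝ) = m' * (Δ₀ D + t * (Δ D - Δ₀ D))) {S' : Fin N' → X → ℂ}
    (hS' : ∀ b, J.IsSection (Cm n) (eqL n) m' k' (S' b))
    {ν : ℕ} (hν : H167.HasRankP n ν (k + k') id (prodF S S'))
    {β : D.FormM n X} (hβ : H167.IsSemiKahler β) (hgood : IsGoodFix2 m m' ν k k' S S' β) :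
    ∃ (M : ℕ) (Dv : Fin M → Set X) (r : Fin M → X → ℝ) (R : Fin M → D.FormM n X) (m₀ : ℕ)
      (R' : Set X), Function.Injective Dv ∧ (∀ D, Δ D ≠ 0 ↔ ∃ i, Dv i = D) ∧ IsBd Dv r R ∧
      0 < m₀ ∧ IsOpen R' ∧ Dense R' ∧
      ∀ (p' μ : ℕ) (K : Fin M → ℕ) (N₀ N₁ : D.FormM n X → X → ℝ) (u : X → ℝ), m₀ ∣ μ →
        (∀ i, (K i : ℝ) ≤ μ * Δ (Dv i)) → IsDecPair Dv r χ p' μ K N₀ N₁ →
        (∀ g x, IsKahler g → 0 < N₀ g x → 0 < N₁ g x →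
          u x = Real.log (N₁ g x) - Real.log (N₀ g x)) →
        ∀ x ∈ R', 0 < N₀ χ x → 0 < N₁ χ x → ∀ e, At e x → ∀ a₀, prodF S S' a₀ x ≠ 0 →
          ∀ v : Cm n, (∀ a, fderiv ℂ (fun z => prodF S S' a (e.symm z) /
            prodF S S' a₀ (e.symm z)) (e x) v = 0) → ∑ i, xi u e (e x) i * v i = 0 := by
  classical
  set T : Finset (Set X) := hΔ.1.toFinset with hTdef
  have hTΔ : ∀ D, D ∈ T ↔ Δ D ≠ 0 := fun D => Set.Finite.mem_toFinset _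
  have hTex : ∀ D ∈ T, ∀ x, ∃ g, J.IsLocalEq (Cm n) D g x := fun D hD =>
    (hΔ.2.1 D ((hTΔ D).1 hD)).2.1
  have hsX : IsSys n (eqL n) T := isSys_eqL hTex
  have hΔ₀0 : ∀ D, 0 ≤ Δ₀ D ∧ Δ₀ D < 1 := by
    intro D
    obtain ⟨q, hq, hq0, hq1⟩ := hΔ₀ D
    rw [hq]
    exact ⟨by exact_mod_cast hq0, by exact_mod_cast hq1⟩
  have hΔ0 : ∀ D, 0 ≤ Δ D := fun D => (hΔ₀0 D).1.trans (hle D)
  have hm0 : (0 : ℝ) < m := by exact_mod_cast hm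
  have hm'0 : (0 : ℝ) < m' := by exact_mod_cast hm'
  set Δ₁ : Set X → ℝ := fun D => Δ₀ D + t * (Δ D - Δ₀ D) with hΔ₁d
  set ΔP : Set X → ℝ := fun D => Δ₀ D + m' * t / (m + m') * (Δ D - Δ₀ D) with hΔPd
  have hkP : ∀ D, (((k + k') D : ℕ) : ℝ) = ((m + m' : ℕ) : ℝ) * ΔP D := by
    intro D
    have hne : (m : ℝ) + m' ≠ 0 := by positivity
    simp only [hΔPd, Pi.add_apply]
    push_cast
    rw [hk D, hk' D]
    field_simp
    ring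
  have hzero : ∀ D, Δ D = 0 → Δ₀ D = 0 := fun D hD =>
    le_antisymm (hD ▸ hle D) (hΔ₀0 D).1
  have hksupp : ∀ D, k D ≠ 0 → D ∈ T := by
    intro D hD
    refine (hTΔ D).2 fun h0 => hD ?_
    have h1 := hk D
    rw [hzero D h0, mul_zero] at h1
    exact_mod_cast h1
  have hk'supp : ∀ D, k' D ≠ 0 → D ∈ T := by
    intro D hD
    refine (hTΔ D).2 fun h0 => hD ?_
    have h1 := hk' D
    rw [hzero D h0, h0, sub_self, mul_zero, add_zero, mul_zero] at h1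
    exact_mod_cast h1
  have hkPsupp : ∀ D, (k + k') D ≠ 0 → D ∈ T := by
    intro D hD
    by_contra hcon
    have h1 : k D = 0 := by by_contra h2; exact hcon (hksupp D h2)
    have h2 : k' D = 0 := by by_contra h2; exact hcon (hk'supp D h2)
    exact hD (by rw [Pi.add_apply, h1, h2])
  have hTk : ∀ D ∈ T, (k + k') D ≠ 0 := by
    intro D hD h0
    rw [Pi.add_apply, Nat.add_eq_zero_iff] at h0
    have h1 := hk' D
    rw [h0.2, Nat.cast_zero] at h1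
    have h2 : 0 < Δ D := lt_of_le_of_ne (hΔ0 D) (Ne.symm ((hTΔ D).1 hD))
    have h3 : Δ₀ D = 0 := by
      have := hk D
      rw [h0.1, Nat.cast_zero] at this
      rcases mul_eq_zero.1 this.symm with h4 | h4
      · exact absurd h4 hm0.ne'
      · exact h4
    rw [h3, sub_zero, zero_add] at h1
    have : 0 < m' * (t * Δ D) := by positivity
    linarith
  -- the divisors and the metrics
  obtain ⟨M, Dv, hinj, hDvT⟩ := exists_enum' T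
  have hDv : ∀ i, Dv i ∈ T := fun i => (hDvT _).2 ⟨i, rfl⟩
  choose ψ hψ hψle using fun i => H342.KD.exists_wt_le hsX (hDv i)
  have hφ := AMP.Main.isCanonical_logdet hχ.toIsHermitian
  set φ : Chart n X → Cm n → ℝ := fun e z => Real.log (χ e z).det.re with hφd
  set r : Fin M → X → ℝ := fun i => H342.KD.rr hsX (Dv i) (ψ i) with hrd
  set R : Fin M → D.FormM n X := fun i => Vale.Agent.P285.TM.cv (H342.KD.OD hsX (Dv i) (hDv i))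
    (ψ i) with hRd
  have hBd : IsBd Dv r R := by
    refine H342.KD.isBd hsX hinj hDv hψ hψle ?_
    intro x g hg c
    obtain ⟨ξ, hξ⟩ := hΔ.2.2.2 x g (fun D hD hx => hg D ((hTΔ D).2 hD) hx)
      (fun D => c ⟨D.1, (hTΔ D.1).2 D.2.1, D.2.2⟩)
    exact ⟨ξ, funext fun D => congrFun hξ ⟨D.1, (hTΔ D.1).1 D.2.1, D.2.2⟩⟩
  -- the three systems
  have hex₀ : ∀ x, ∃ (r : ℕ) (g : Fin r → X → ℂ) (a : Fin r → ℕ) (H : Fin N → X → ℂ),
      SysLoc (n := n) (eqL n) m k S x g a H := by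
    intro x
    obtain ⟨T', e, r, g, a, a', H, H', hT', he, hg, hH, hH', hne, hne', hev⟩ := hgood x
    exact ⟨r, g, a, H, hg, hH, hne, T', e, fun D hD => hT' D (Or.inl hD), he,
      hev.mono fun z hz => hz.1⟩
  have hex₁ : ∀ x, ∃ (r : ℕ) (g : Fin r → X → ℂ) (a : Fin r → ℕ) (H : Fin N' → X → ℂ),
      SysLoc (n := n) (eqL n) m' k' S' x g a H := by
    intro x
    obtain ⟨T', e, r, g, a, a', H, H', hT', he, hg, hH, hH', hne, hne', hev⟩ := hgood x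
    exact ⟨r, g, a', H', hg, hH', hne', T', e, fun D hD => hT' D (Or.inr hD), he,
      hev.mono fun z hz => hz.2.1⟩
  have hgoodP := sysLoc_id (goodFixP_of hgood)
  have hexP : ∀ x, ∃ (r : ℕ) (g : Fin r → X → ℂ) (a : Fin r → ℕ) (H : Fin (N * N') → X → ℂ),
      SysLoc (n := n) (eqL n) (m + m') (k + k') (prodF S S') x g a H := fun x => by
    obtain ⟨r, g, a, H, h1, -⟩ := hgoodP x
    exact ⟨r, g, a, H, h1⟩
  have hPs : ∀ b, J.IsSection (Cm n) (eqL n) (m + m') (k + k') (prodF S S' b) := fun b =>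
    hsX.mul hksupp hk'supp (hS _) (hS' _)
  obtain ⟨hΛ₀, ⟨ρ₀, hρ₀⟩, -⟩ := hmet n X (Set X) (eqL n) T hsX φ hφ Δ₀ m N hm k hksupp hk M Dv hinj
    hDvT hDv ψ hψ S hS hex₀
  obtain ⟨hΛ₁, ⟨ρ₁, hρ₁⟩, -⟩ := hmet n X (Set X) (eqL n) T hsX φ hφ Δ₁ m' N' hm' k' hk'supp hk' M Dv
    hinj hDvT hDv ψ hψ S' hS' hex₁
  obtain ⟨hΛP, ⟨ρP, hρP⟩, -⟩ := hmet n X (Set X) (eqL n) T hsX φ hφ ΔP (m + m') (N * N')
    (Nat.add_pos_left hm m') (k + k') hkPsupp hkP M Dv hinj hDvT hDv ψ hψ (prodF S S') hPs hexP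
  have hl₀ : ∀ x, ∃ (r N : ℕ) (g : Fin r → X → ℂ) (a : Fin r → ℕ) (H : Fin N → X → ℂ),
      LocAt m (clsK φ (fun i => Δ₀ (Dv i)) R) ρ₀ x g a H := fun x => by
    obtain ⟨r, g, a, H, h1⟩ := hex₀ x
    obtain ⟨u, -, -, h2⟩ := hρ₀ x r g a H h1
    exact ⟨r, N, g, a, _, h2⟩
  have hl₁ : ∀ x, ∃ (r N : ℕ) (g : Fin r → X → ℂ) (a : Fin r → ℕ) (H : Fin N → X → ℂ),
      LocAt m' (clsK φ (fun i => Δ₁ (Dv i)) R) ρ₁ x g a H := fun x => by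
    obtain ⟨r, g, a, H, h1⟩ := hex₁ x
    obtain ⟨u, -, -, h2⟩ := hρ₁ x r g a H h1
    exact ⟨r, N', g, a, _, h2⟩
  obtain ⟨C, -, -, hρ₀s, hρ₀0, hρ₀d, -, -, hcurv₀, -⟩ := hform n X χ hχ m hm _ hΛ₀ ρ₀ hl₀
  obtain ⟨C', -, -, hρ₁s, hρ₁0, hρ₁d, -, -, hcurv₁, -⟩ := hform n X χ hχ m' hm' _ hΛ₁ ρ₁ hl₁
  obtain ⟨CP, θ, ν', C₁, RP, hD⟩ := exists_sysDat hform hgr hχ hsX (Nat.add_pos_left hm m') hkPsupp
    hPs hΛP hρP hβ hgoodP (by
      obtain ⟨x, b₀, c, hx, h0, hc⟩ := hν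
      exact ⟨x, b₀, c, (off_eqL hTex).2 fun D hD => hx D (hTk D hD), h0, hc⟩)
  have ho₀ : IsOpen {x | 0 < ρ₀ x} := isOpen_lt continuous_const (INT.SmoothFn.continuous hρ₀s)
  have ho₁ : IsOpen {x | 0 < ρ₁ x} := isOpen_lt continuous_const (INT.SmoothFn.continuous hρ₁s)
  obtain ⟨l, hl, K₁, hK₁, -⟩ := exists_denominator (JB.snc hΔ)
  refine ⟨M, Dv, r, R, l * m, RP ∩ {x | 0 < ρ₀ x} ∩ {x | 0 < ρ₁ x}, hinj,
    (fun D => (hTΔ D).symm.trans (hDvT D)), hBd, Nat.mul_pos hl hm, (hD.op.inter ho₀).inter ho₁,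
    (hD.de.inter_of_isOpen_left hρ₀d hD.op).inter_of_isOpen_left hρ₁d (hD.op.inter ho₀), ?_⟩
  intro p' μ K N₀ N₁ u hμ hK hdec hu x hx h0 h1 e he a₀ ha₀ v hv
  obtain ⟨⟨hxP, hx0⟩, hx1⟩ := hx
  obtain ⟨hxo, -, -, hg⟩ := hD.good x hxP
  obtain ⟨c, rfl⟩ := hμ
  have hE : ∀ i, ((c * (m * K₁ (Dv i) - l * k (Dv i)) : ℕ) : ℝ) =
      ((l * m * c : ℕ) : ℝ) * (Δ (Dv i) - Δ₀ (Dv i)) := by
    intro i
    have h2 : l * k (Dv i) ≤ m * K₁ (Dv i) := by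
      have h3 : ((l * k (Dv i) : ℕ) : ℝ) ≤ ((m * K₁ (Dv i) : ℕ) : ℝ) := by
        push_cast
        rw [hk, hK₁]
        have h4 := mul_le_mul_of_nonneg_left (hle (Dv i)) (by positivity : (0 : ℝ) ≤ l * m)
        calc (l : ℝ) * (m * Δ₀ (Dv i)) = l * m * Δ₀ (Dv i) := by ring
          _ ≤ l * m * Δ (Dv i) := h4
          _ = m * (l * Δ (Dv i)) := by ring
      exact_mod_cast h3
    push_cast [Nat.cast_sub h2]
    rw [hk, hK₁]
    ring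
  refine core_shift hcore hχ hφ hBd (dl := fun i => Δ₀ (Dv i)) (dl' := fun i => Δ (Dv i))
    (fun i => hΔ₀0 (Dv i)) (fun i => hle (Dv i)) ht hm hm' hρ₀s hρ₀0 hρ₁s hρ₁0
    (hnull n X m _ ρ₀ hl₀) (hnull n X m' _ ρ₁ hl₁) hcurv₀ hcurv₁ hD.closed
    (H167.GM.IsSemiKahler.isClosedForm hβ) hD.psd hβ.posSemidef hD.growth hK hE hdec hu he h0 h1
    hx0 hx1 (fun i => bd_pos' hBd ((off_eqL hTex).1 hxo (Dv i) (hDv i))) (hg e he).1 (hg e he).2 v ?_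
  exact (hD.ker e x he hxo a₀ ha₀ v).2 hv

theorem mainPartLD_of (hform : FormPartG) (hgr : GrowthPartG) (hmet : MetPartG)
    (hnull : NullPart') (hcore : CorePartLG) (hbr : BridgeLD) (hfib : FibPartGL) :
    MainPartLD := by
  intro n p d hnpd X Z Y F _ _ _ _ _ _ _ _ _ _ _ _ _ _ _ _ _ _ _ _ χ hχ Δ Δ₀ hΔ hΔ₀ hle t ht ht1
    m N hm k hk S hS m' N' hm' k' hk' S' hS' j hj f hf Δ' hΔ' hres 𝒢 h𝒢 B hB hB𝒢 i hi hne ν hν β hβ
    hgood νF hνF βF hβF hNF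
  classical
  set T : Finset (Set X) := hΔ.1.toFinset with hTdef
  have hTΔ : ∀ D, D ∈ T ↔ Δ D ≠ 0 := fun D => Set.Finite.mem_toFinset _
  have hTex : ∀ D ∈ T, ∀ x, ∃ g, J.IsLocalEq (Cm n) D g x := fun D hD =>
    (hΔ.2.1 D ((hTΔ D).1 hD)).2.1
  have hsX : IsSys n (eqL n) T := isSys_eqL hTex
  have hΔ₀0 : ∀ D, 0 ≤ Δ₀ D := by
    intro D
    obtain ⟨q, hq, hq0, hq1⟩ := hΔ₀ D
    rw [hq]
    exact_mod_cast hq0
  have hzero : ∀ D, Δ D = 0 → Δ₀ D = 0 := fun D hD => le_antisymm (hD ▸ hle D) (hΔ₀0 D)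
  have hksupp : ∀ D, k D ≠ 0 → D ∈ T := by
    intro D hD
    refine (hTΔ D).2 fun h0 => hD ?_
    have h1 := hk D
    rw [hzero D h0, mul_zero] at h1
    exact_mod_cast h1
  have hk'supp : ∀ D, k' D ≠ 0 → D ∈ T := by
    intro D hD
    refine (hTΔ D).2 fun h0 => hD ?_
    have h1 := hk' D
    rw [hzero D h0, h0, sub_self, mul_zero, add_zero, mul_zero] at h1
    exact_mod_cast h1
  obtain ⟨M, Dv, r, R, m₀, R', hinj, hDv, hBd, hm₀, hRo, hRd, hX⟩ := core_GL hform hgr hmet hnull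
    hcore hχ hΔ hΔ₀ hle ht ht1 hm hk hS hm' hk' hS' hν hβ hgood
  have hXY : ConstY n p j f 𝒢 Δ Δ' (prodF S S') R' := hbr n p M X Z Y χ hχ j hj f hf Δ hΔ Δ' hΔ'
    hres 𝒢 h𝒢 Dv hinj hDv r R hBd m₀ hm₀ (N * N') (prodF S S') R' hX
  obtain ⟨RF, hRFd, hRF0, hF⟩ := hfib n p d hnpd X Z Y F χ hχ Δ Δ₀ hΔ hΔ₀ hle t ht ht1 m N hm k hk S
    hS m' N' hm' k' hk' S' hS' j hj f hf i hi hne νF hνF βF hβF hNF
  refine main_absB hnpd hΔ hj hf h𝒢.1 h𝒢.2.1 hB hB𝒢 hi hne (mP := m + m')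
    (Nat.add_pos_left hm m') (kP := k + k') (fun D => ?_) (P := prodF S S')
    (fun b => hsX.mul hksupp hk'supp (hS _) (hS' _)) hRo hRd hXY hRFd hF hRF0
  rw [Pi.add_apply]
  push_cast
  rw [hk D, hk' D, add_mul]
  have h1 : Δ₀ D + t * (Δ D - Δ₀ D) ≤ Δ D := by
    have := mul_le_mul_of_nonneg_right ht1 (sub_nonneg.2 (hle D))
    linarith
  exact add_le_add (mul_le_mul_of_nonneg_left (hle D) (Nat.cast_nonneg _))
    (mul_le_mul_of_nonneg_left h1 (Nat.cast_nonneg _))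

end Vale.Agent.P281.H716.LD
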