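import Vale.Agent.P281.H716.KL.Defs

/-! P281: the logarithmic case (components of the boundary which do not dominate a divisor of `Y`). -/

namespace Vale.Agent.P281.H716.LD

open scoped Manifold ContDiff Topology
open Set Filter Vale.Agent.P281 Vale.Agent.P272.K Vale.Agent.P281.H167 Vale.Agent.P281.H713

/-- `𝒢` is a finite set of prime divisors of `Y` and the preimage of their union is a finite union
of prime divisors `D`, each of which dominates one of the divisors of `𝒢`, or has coefficient `1` in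
`Δ`; in the latter case, `𝒢` has simple normal crossings. -/
def IsLogDivisorial (E E' : Type) [NormedAddCommGroup E] [NormedSpace ℂ E]
    [NormedAddCommGroup E'] [NormedSpace ℂ E'] {X Y : Type}
    [TopologicalSpace X] [ChartedSpace E X] [TopologicalSpace Y] [ChartedSpace E' Y]
    (f : X → Y) (𝒢 : Set (Set Y)) (Δ : Set X → ℝ) : Prop :=
  𝒢.Finite ∧ (∀ G ∈ 𝒢, J.IsPrime E' G) ∧ ∃ 𝒟 : Set (Set X), 𝒟.Finite ∧ f ⁻¹' (⋃₀ 𝒢) = ⋃₀ 𝒟 ∧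
    ∀ D ∈ 𝒟, (∃ G ∈ 𝒢, J.Dominates E E' f D G) ∨
      (J.IsPrime E D ∧ Δ D = 1 ∧ J.IsSNC E' (𝒢.indicator fun _ => (1 : ℝ)))

/-- **Theorem KGL**, logarithmic case included. -/
def MainPartLD : Prop := ∀ (n p d : ℕ) (_ : n = p + d) (X Z Y F : Type)
  [TopologicalSpace X] [T2Space X] [CompactSpace X] [ConnectedSpace X]
  [ChartedSpace (Cm n) X] [IsManifold 𝓘(ℂ, Cm n) ω X]
  [TopologicalSpace Z] [ChartedSpace (Cm n) Z] [IsManifold 𝓘(ℂ, Cm n) ω Z]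
  [TopologicalSpace Y] [T2Space Y] [ConnectedSpace Y]
  [ChartedSpace (Cm p) Y] [IsManifold 𝓘(ℂ, Cm p) ω Y]
  [TopologicalSpace F] [T2Space F] [CompactSpace F] [ConnectedSpace F]
  [ChartedSpace (Cm d) F] [IsManifold 𝓘(ℂ, Cm d) ω F]
  (χ : Chart n X → Cm n → Matrix (Fin n) (Fin n) ℂ) (_ : IsKahler χ)
  (Δ Δ₀ : Set X → ℝ) (_ : J.IsSNC (Cm n) Δ) (_ : ∀ D, ∃ q : ℚ, Δ₀ D = q ∧ 0 ≤ q ∧ q < 1)
  (_ : ∀ D, Δ₀ D ≤ Δ D) (t : ℝ) (_ : 0 < t) (_ : t ≤ 1)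
  (m N : ℕ) (_ : 0 < m) (k : Set X → ℕ) (_ : ∀ D, (k D : ℝ) = m * Δ₀ D) (S : Fin N → X → ℂ)
  (_ : ∀ b, J.IsSection (Cm n) (fun (D : Set X) z g => J.IsLocalEq (Cm n) D g z) m k (S b))
  (m' N' : ℕ) (_ : 0 < m') (k' : Set X → ℕ)
  (_ : ∀ D, (k' D : ℝ) = m' * (Δ₀ D + t * (Δ D - Δ₀ D))) (S' : Fin N' → X → ℂ)
  (_ : ∀ b, J.IsSection (Cm n) (fun (D : Set X) z g => J.IsLocalEq (Cm n) D g z) m' k' (S' b))
  (j : Z → X) (_ : J.IsBigOpen (Cm n) j) (f : Z → Y) (_ : ContMDiff 𝓘(ℂ, Cm n) 𝓘(ℂ, Cm p) ω f)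
  (Δ' : Set Z → ℝ) (_ : J.IsSNC (Cm n) Δ') (_ : J.IsRestriction j Δ Δ')
  (𝒢 : Set (Set Y)) (_ : IsLogDivisorial (Cm n) (Cm p) f 𝒢 Δ')
  (B : Set Y → ℝ) (_ : ∀ G, B G ≤ J.orbBase' (Cm n) (Cm p) f Δ' G) (_ : ∀ G, B G ≠ 0 → G ∈ 𝒢)
  (i : F → Z) (_ : IsSmoothFibre (Cm n) (Cm p) (Cm d) f i)
  (_ : ∀ D, Δ D ≠ 0 → ∃ t, j (i t) ∉ D)
  (ν : ℕ) (_ : HasRankP n ν (k + k') id (KL.prodF S S'))
  (β : Chart n X → Cm n → Matrix (Fin n) (Fin n) ℂ) (_ : IsSemiKahler β)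
  (_ : KL.IsGoodFix2 m m' ν k k' S S' β)
  (νF : ℕ) (_ : HasRankP d νF (k + k') (fun t => j (i t)) (KL.prodF S S'))
  (βF : Chart d F → Cm d → Matrix (Fin d) (Fin d) ℂ) (_ : IsSemiKahler βF)
  (_ : IsGoodFixP n d (m + m') νF (k + k') (fun t => j (i t)) (KL.prodF S S') βF),
  J.kod (Cm d) (fun (D : Set X) t g => ∃ e, J.IsLocalEq (Cm n) D e (j (i t)) ∧
      ∀ᶠ t' in 𝓝 t, g t' = e (j (i t'))) Δ +
    J.kod (Cm p) (fun (G : Set Y) y g => J.IsLocalEq (Cm p) G g y) B ≤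
    J.kod (Cm n) (fun (D : Set X) x g => J.IsLocalEq (Cm n) D g x) Δ

end Vale.Agent.P281.H716.LD
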