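import Vale.Agent.P281.H716.LD.Asm
import Vale.Agent.P281.H716.KL.Fin

/-! P281: theorem KGL, logarithmic case included. -/

namespace Vale.Agent.P281.H716.LD

open Vale.Agent.P281 Vale.Agent.P281.H716.KL

theorem mainPartLD (hbr : BridgeLD) : MainPartLD :=
  mainPartLD_of H342.KG.formPartG H368.KG.growthPartG H342.KG.metPartG H368.KG.nullPart corePartLG
    hbr fibPartGL

end Vale.Agent.P281.H716.LD
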